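import Vale.Agent.P039.H648.Link
import Mathlib.LinearAlgebra.Dimension.Constructions
import Mathlib.LinearAlgebra.FiniteDimensional.Basic

/-! A perfect matching whose edges are assigned to different faces is the complement of a
Hamiltonian cycle. -/

namespace Vale.Agent.P039.H648

open Finset

open Vale.Agent.P039.Bn Vale.Agent.P039.Bn.PMap

variable {B W V : Type}

/-- all vertices of the cubic map on the face `v` satisfy `a`, `a'` -/
def Ins (M : PMap B W V) (a : B → Prop) (a' : W → Prop) (v : V) : Prop :=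
  ∀ j b, M.c j b = v → a b ∧ a' (M.e (j + 1) b) ∧ a' (M.e (j + 2) b)

theorem conn_V {M : PMap B W V} (hc : M.Conn) {n : V → ℚ}
    (h : ∀ b j, n (M.c (j + 1) b) = n (M.c (j + 2) b)) (v v' : V) : n v = n v' := by
  have h0 : ∀ b i j, n (M.c i b) = n (M.c j b) := by
    have key : ∀ b i, n (M.c i b) = n (M.c 0 b) := by
      intro b i
      have h1 := h b 0
      have h2 := h b 1
      have e1 : (0 : Fin 3) + 1 = 1 := rfl
      have e2 : (0 : Fin 3) + 2 = 2 := rfl
      have e3 : (1 : Fin 3) + 1 = 2 := rfl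
      have e4 : (1 : Fin 3) + 2 = 0 := rfl
      rw [e1, e2] at h1
      rw [e3, e4] at h2
      fin_cases i
      · rfl
      · exact h1.trans h2
      · exact h2
    intro b i j
    rw [key b i, key b j]
  have h2 : ∀ b b', n (M.c 0 b) = n (M.c 0 b') := by
    intro b b'
    have := hc b b'
    induction this with
    | rel x y hxy => obtain ⟨j, hj⟩ := hxy; rw [h0 x 0 j, hj, h0 y j 0]
    | refl x => rfl
    | symm x y _ ih => exact ih.symm
    | trans x y z _ _ ih1 ih2 => exact ih1.trans ih2
  obtain ⟨j, b, rfl⟩ := M.surj v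
  obtain ⟨j', b', rfl⟩ := M.surj v'
  rw [h0 b j 0, h2 b b', h0 b' 0 j']

theorem sum_rot (g : Fin 3 → ℚ) : ∑ i : Fin 3, (g (i + 1) - g (i + 2)) = 0 := by
  rw [Fin.sum_univ_three]
  have e1 : (0 : Fin 3) + 1 = 1 := rfl
  have e2 : (0 : Fin 3) + 2 = 2 := rfl
  have e3 : (1 : Fin 3) + 1 = 2 := rfl
  have e4 : (1 : Fin 3) + 2 = 0 := rfl
  have e5 : (2 : Fin 3) + 1 = 0 := rfl
  have e6 : (2 : Fin 3) + 2 = 1 := rfl
  rw [e1, e2, e3, e4, e5, e6]; ring

/-- Euler's inequality for a connected part of the cubic map. -/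
theorem euler_ineq [Fintype B] [Fintype W] [Fintype V] {M : PMap B W V} (hc : M.Conn)
    (a : B → Prop) (a' : W → Prop) (b0 : B) (h0 : a b0)
    (hconn : ∀ (hB : B → ℚ) (hW : W → ℚ),
      (∀ b i, a b → a' (M.e i b) → hB b = hW (M.e i b)) → hB b0 = 0 →
      (∀ b, a b → hB b = 0) ∧ (∀ w, a' w → hW w = 0))
    (hout : ∃ v, ¬ Ins M a a' v) :
    Nat.card {v // Ins M a a' v} + Nat.card {b // a b} + Nat.card {w // a' w} ≤
      Nat.card {p : B × Fin 3 // a p.1 ∧ a' (M.e p.2 p.1)} + 1 := by
  classical
  let D := ({v // Ins M a a' v} ⊕ ({b : B // a b ∧ b ≠ b0} ⊕ {w // a' w}))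
  let E := {p : B × Fin 3 // a p.1 ∧ a' (M.e p.2 p.1)}
  -- the three extensions by zero
  let nn : (D → ℚ) →ₗ[ℚ] (V → ℚ) :=
    { toFun := fun φ v => if h : Ins M a a' v then φ (Sum.inl ⟨v, h⟩) else 0
      map_add' := by
        intro x y; funext v; simp only [Pi.add_apply]; split_ifs <;> simp
      map_smul' := by
        intro r x; funext v; simp only [Pi.smul_apply, RingHom.id_apply]; split_ifs <;> simp }
  let hB : (D → ℚ) →ₗ[ℚ] (B → ℚ) :=
    { toFun := fun φ b => if h : a b ∧ b ≠ b0 then φ (Sum.inr (Sum.inl ⟨b, h⟩)) else 0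
      map_add' := by
        intro x y; funext v; simp only [Pi.add_apply]; split_ifs <;> simp
      map_smul' := by
        intro r x; funext v; simp only [Pi.smul_apply, RingHom.id_apply]; split_ifs <;> simp }
  let hW : (D → ℚ) →ₗ[ℚ] (W → ℚ) :=
    { toFun := fun φ w => if h : a' w then φ (Sum.inr (Sum.inr ⟨w, h⟩)) else 0
      map_add' := by
        intro x y; funext v; simp only [Pi.add_apply]; split_ifs <;> simp
      map_smul' := by
        intro r x; funext v; simp only [Pi.smul_apply, RingHom.id_apply]; split_ifs <;> simp }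
  let Φ : (D → ℚ) →ₗ[ℚ] (E → ℚ) :=
    { toFun := fun φ p => nn φ (M.c (p.1.2 + 1) p.1.1) - nn φ (M.c (p.1.2 + 2) p.1.1)
        + (hB φ p.1.1 - hW φ (M.e p.1.2 p.1.1))
      map_add' := by
        intro x y; funext v
        simp only [map_add, Pi.add_apply]; ring
      map_smul' := by
        intro r x; funext v
        simp only [map_smul, Pi.smul_apply, RingHom.id_apply, smul_eq_mul]; ring }
  have hinj : Function.Injective Φ := by
    rw [injective_iff_map_eq_zero]
    intro φ hφ
    set n := nn φ with hn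
    have hn0 : ∀ v, ¬ Ins M a a' v → n v = 0 := by
      intro v hv; rw [hn]; exact dif_neg hv
    let y : B → Fin 3 → ℚ := fun b i => n (M.c (i + 1) b) - n (M.c (i + 2) b)
    have hy0 : ∀ b i, ¬ (a b ∧ a' (M.e i b)) → y b i = 0 := by
      intro b i hbi
      have h1 : ¬ Ins M a a' (M.c (i + 1) b) := by
        intro h; apply hbi
        have := h (i + 1) b rfl
        rw [f12] at this
        exact ⟨this.1, this.2.2⟩
      have h2 : ¬ Ins M a a' (M.c (i + 2) b) := by
        intro h; apply hbi
        have := h (i + 2) b rfl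
        rw [f21] at this
        exact ⟨this.1, this.2.1⟩
      simp only [y, hn0 _ h1, hn0 _ h2, sub_zero]
    have hyz : ∀ b i, y b i * (hB φ b - hW φ (M.e i b)) = - (y b i * y b i) := by
      intro b i
      by_cases hbi : a b ∧ a' (M.e i b)
      · have := congrFun hφ ⟨(b, i), hbi⟩
        have h2 : y b i + (hB φ b - hW φ (M.e i b)) = 0 := this
        have h3 : hB φ b - hW φ (M.e i b) = - y b i := by linarith
        rw [h3]; ring
      · rw [hy0 b i hbi]; ring
    have hsB : ∀ b, ∑ i, y b i = 0 := by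
      intro b
      exact sum_rot (fun i => n (M.c i b))
    have hsW : ∀ w, ∑ i, y ((M.e i).symm w) i = 0 := by
      intro w
      have h1 := sum_rot (fun i => n (M.cw i w))
      rw [← h1]
      apply Finset.sum_congr rfl
      intro i _
      simp only [y]
      rw [M.cw_symm (i + 1) i (fne1 i).symm, M.cw_symm (i + 2) i (fne2 i).symm]
    have hsum : ∑ b, ∑ i, y b i * (hB φ b - hW φ (M.e i b)) = 0 := by
      have h1 : ∑ b, ∑ i, y b i * hB φ b = 0 := by
        apply Finset.sum_eq_zero; intro b _
        rw [← Finset.sum_mul, hsB, zero_mul]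
      have h2 : ∑ b, ∑ i, y b i * hW φ (M.e i b) = 0 := by
        rw [Finset.sum_comm]
        have h3 : ∀ i, ∑ b, y b i * hW φ (M.e i b) = ∑ w, y ((M.e i).symm w) i * hW φ w := by
          intro i
          rw [← Equiv.sum_comp (M.e i) (fun w => y ((M.e i).symm w) i * hW φ w)]
          apply Finset.sum_congr rfl; intro b _
          rw [Equiv.symm_apply_apply]
        rw [Finset.sum_congr rfl (fun i _ => h3 i), Finset.sum_comm]
        apply Finset.sum_eq_zero; intro w _
        rw [← Finset.sum_mul, hsW, zero_mul]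
      simp only [mul_sub, Finset.sum_sub_distrib]
      rw [h1, h2, sub_zero]
    have hy : ∀ b i, y b i = 0 := by
      have h1 : ∑ b, ∑ i, y b i * y b i = 0 := by
        have h2 : ∑ b, ∑ i, y b i * y b i = - ∑ b, ∑ i, y b i * (hB φ b - hW φ (M.e i b)) := by
          rw [← Finset.sum_neg_distrib]
          apply Finset.sum_congr rfl; intro b _
          rw [← Finset.sum_neg_distrib]
          apply Finset.sum_congr rfl; intro i _
          rw [hyz]; ring
        rw [h2, hsum]; ring
      intro b i
      rw [Finset.sum_eq_zero_iff_of_nonneg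
        (fun b _ => Finset.sum_nonneg (fun i _ => mul_self_nonneg _))] at h1
      have h2 := h1 b (Finset.mem_univ _)
      rw [Finset.sum_eq_zero_iff_of_nonneg (fun i _ => mul_self_nonneg _)] at h2
      exact mul_self_eq_zero.1 (h2 i (Finset.mem_univ _))
    have hn' : ∀ v, n v = 0 := by
      obtain ⟨v0, hv0⟩ := hout
      intro v
      rw [conn_V hc (n := n) (fun b j => by have := hy b j; simp only [y] at this; linarith) v v0]
      exact hn0 v0 hv0
    have hz := hconn (hB φ) (hW φ) (by
      intro b i hb hw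
      have := congrFun hφ ⟨(b, i), hb, hw⟩
      have h2 : y b i + (hB φ b - hW φ (M.e i b)) = 0 := this
      rw [hy b i] at h2
      linarith) (dif_neg (by simp))
    funext d
    rcases d with ⟨v, hv⟩ | ⟨b, hb⟩ | ⟨w, hw⟩
    · have := hn' v
      rw [hn] at this
      simpa [nn, hv] using this
    · have := hz.1 b hb.1
      have h2 : hB φ b = φ (Sum.inr (Sum.inl ⟨b, hb⟩)) := dif_pos hb
      rw [h2] at this
      exact this
    · have := hz.2 w hw
      have h2 : hW φ w = φ (Sum.inr (Sum.inr ⟨w, hw⟩)) := dif_pos hw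
      rw [h2] at this
      exact this
  have hle := LinearMap.finrank_le_finrank_of_injective hinj
  rw [Module.finrank_fintype_fun_eq_card, Module.finrank_fintype_fun_eq_card] at hle
  simp only [D, Fintype.card_sum] at hle
  have h1 : Nat.card {b // a b} = Fintype.card {b : B // a b ∧ b ≠ b0} + 1 := by
    rw [Nat.card_eq_fintype_card, Fintype.card_subtype, Fintype.card_subtype]
    have h2 : (univ.filter fun b : B => a b ∧ b ≠ b0) = (univ.filter fun b : B => a b).erase b0 := by
      ext b; simp [and_comm]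
    rw [h2, Finset.card_erase_add_one (by simpa using h0)]
  rw [h1]
  simp only [Nat.card_eq_fintype_card]
  simp only [E] at hle
  omega

section

variable [Fintype B] [Fintype W] [Fintype V] {M : PMap B W V}

omit [Fintype W] [Fintype V] in
/-- `Σ` over the corners of the face `v`. -/
theorem sum_face_rot [DecidableEq V] (j : Fin 3) (v : V) (g : W → ℤ) :
    (∑ b : B, if M.c j b = v then g (M.e (j + 2) b) else 0) =
      ∑ b : B, if M.c j b = v then g (M.e (j + 1) b) else 0 := by
  rw [← Equiv.sum_comp (M.rho j) (fun b => if M.c j b = v then g (M.e (j + 1) b) else 0)]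
  apply Finset.sum_congr rfl; intro b _
  rw [M.c_rho, M.e_rho]

open Classical in
/-- `1` if the edge `(b,i)` joins the two sides -/
noncomputable def cutn (M : PMap B W V) (a : B → Prop) (a' : W → Prop) (i : Fin 3) (b : B) : ℤ :=
  if (a b ↔ a' (M.e i b)) then 0 else 1

omit [Fintype B] [Fintype W] [Fintype V] in
theorem cutn_nonneg (a : B → Prop) (a' : W → Prop) (i : Fin 3) (b : B) : 0 ≤ cutn M a a' i b := by
  unfold cutn; split_ifs <;> simp

open Classical in
/-- A face with vertices on both sides has at least two edges that join the two sides. -/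
theorem two_le_cross (a : B → Prop) (a' : W → Prop) (v : V)
    (h1 : ¬ Ins M a a' v) (h2 : ¬ Ins M (fun b => ¬ a b) (fun w => ¬ a' w) v) :
    2 ≤ ∑ j : Fin 3, ∑ b : B,
      if M.c j b = v then cutn M a a' (j + 1) b + cutn M a a' (j + 2) b else 0 := by
  obtain ⟨j, b1, hb1⟩ := M.surj v
  have hj : ∀ j' b, M.c j' b = v → j' = j := fun j' b h => M.cls _ _ _ _ (h.trans hb1.symm)
  rw [Finset.sum_eq_single j]
  rotate_left
  · intro j' _ hne
    apply Finset.sum_eq_zero; intro b _
    rw [if_neg (fun h => hne (hj j' b h))]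
  · intro h; exact absurd (Finset.mem_univ _) h
  set T := ∑ b : B, if M.c j b = v then cutn M a a' (j + 1) b + cutn M a a' (j + 2) b else 0 with hT
  have hnn : ∀ b : B, 0 ≤ (if M.c j b = v then cutn M a a' (j + 1) b + cutn M a a' (j + 2) b
      else 0) := by
    intro b; split_ifs
    · exact add_nonneg (cutn_nonneg _ _ _ _) (cutn_nonneg _ _ _ _)
    · exact le_refl _
  have hT0 : 0 ≤ T := Finset.sum_nonneg (fun b _ => hnn b)
  have heven : ∃ r : ℤ, T = 2 * r := by
    let P : B → ℤ := fun b => if a b then 1 else 0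
    let Q : W → ℤ := fun w => if a' w then 1 else 0
    have hc : ∀ i b, cutn M a a' i b = P b + Q (M.e i b) - 2 * (P b * Q (M.e i b)) := by
      intro i b
      simp only [cutn, P, Q]
      by_cases h3 : a b <;> by_cases h4 : a' (M.e i b) <;> simp [h3, h4]
    refine ⟨(∑ b : B, if M.c j b = v then P b - P b * Q (M.e (j + 1) b)
      - P b * Q (M.e (j + 2) b) else 0) + ∑ b : B, if M.c j b = v then Q (M.e (j + 1) b) else 0, ?_⟩
    have h5 := sum_face_rot (M := M) j v Q
    have h6 : T = (∑ b : B, 2 * (if M.c j b = v then P b - P b * Q (M.e (j + 1) b)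
      - P b * Q (M.e (j + 2) b) else 0)) + (∑ b : B, if M.c j b = v then Q (M.e (j + 1) b) else 0)
        + ∑ b : B, if M.c j b = v then Q (M.e (j + 2) b) else 0 := by
      rw [hT, ← Finset.sum_add_distrib, ← Finset.sum_add_distrib]
      apply Finset.sum_congr rfl; intro b _
      rw [hc, hc]
      split_ifs <;> ring
    rw [h6, h5, ← Finset.mul_sum]; ring
  have hne : T ≠ 0 := by
    intro h0
    rw [hT, Finset.sum_eq_zero_iff_of_nonneg (fun b _ => hnn b)] at h0
    have h3 : ∀ b, M.c j b = v → (a b ↔ a' (M.e (j + 1) b)) ∧ (a b ↔ a' (M.e (j + 2) b)) := by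
      intro b hb
      have h4 := h0 b (Finset.mem_univ _)
      rw [if_pos hb] at h4
      have h5 := cutn_nonneg (M := M) a a' (j + 1) b
      have h6 := cutn_nonneg (M := M) a a' (j + 2) b
      have h7 : cutn M a a' (j + 1) b = 0 := by linarith
      have h8 : cutn M a a' (j + 2) b = 0 := by linarith
      constructor
      · by_contra h9; unfold cutn at h7; rw [if_neg h9] at h7; omega
      · by_contra h9; unfold cutn at h8; rw [if_neg h9] at h8; omega
    have h4 : ∀ x y, Relation.EqvGen (fun x y => M.e (j + 1) y = M.e (j + 2) x) x y →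
        M.c j x = v → (a x ↔ a y) := by
      intro x y hxy
      induction hxy with
      | rel x y hxy =>
        intro hx
        have hy : M.c j y = v := (M.step _ _ _ hxy).trans hx
        rw [(h3 x hx).2, ← hxy, ← (h3 y hy).1]
      | refl x => intro _; exact Iff.rfl
      | symm x y hxy ih =>
        intro hy
        exact (ih ((M.c_of_eqvGen hxy).trans hy)).symm
      | trans x y z hxy _ ih1 ih2 =>
        intro hx
        exact (ih1 hx).trans (ih2 ((M.c_of_eqvGen hxy).symm.trans hx))
    have h5 : ∀ b, M.c j b = v → (a b1 ↔ a b) := fun b hb =>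
      h4 b1 b (M.exact j b1 b (hb1.trans hb.symm)) hb1
    by_cases h6 : a b1
    · apply h1
      intro j' b hb
      have := hj j' b hb
      subst this
      have h7 := (h5 b hb).1 h6
      exact ⟨h7, (h3 b hb).1.1 h7, (h3 b hb).2.1 h7⟩
    · apply h2
      intro j' b hb
      have := hj j' b hb
      subst this
      have h7 : ¬ a b := fun h => h6 ((h5 b hb).2 h)
      exact ⟨h7, fun h => h7 ((h3 b hb).1.2 h), fun h => h7 ((h3 b hb).2.2 h)⟩
  obtain ⟨r, hr⟩ := heven
  omega

/-- A perfect matching whose edges are assigned to different faces, where only two faces at `b0`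
are not used, is the complement of a connected graph, hence of a Hamiltonian cycle. -/
theorem ham_of_owner (hS : M.Sph) {b0 : B} {f m : B → Fin 3} (hf : Choice M b0 f)
    (hm : ∀ b, b ≠ b0 → m b ≠ f b) (hbij : Function.Bijective (fun b => M.e (m b) b))
    (x : B ⊕ W) :
    Relation.EqvGen (fun x y => ∃ i b, i ≠ m b ∧ x = Sum.inl b ∧ y = Sum.inr (M.e i b))
      (Sum.inl b0) x := by
  classical
  by_contra hx
  set r : B ⊕ W → B ⊕ W → Prop :=
    fun x y => ∃ i b, i ≠ m b ∧ x = Sum.inl b ∧ y = Sum.inr (M.e i b) with hr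
  let a : B → Prop := fun b => Relation.EqvGen r (Sum.inl b0) (Sum.inl b)
  let a' : W → Prop := fun w => Relation.EqvGen r (Sum.inl b0) (Sum.inr w)
  have ha0 : a b0 := Relation.EqvGen.refl _
  have hcl : ∀ i b, i ≠ m b → (a b ↔ a' (M.e i b)) := by
    intro i b hi
    have h1 : Relation.EqvGen r (Sum.inl b) (Sum.inr (M.e i b)) :=
      Relation.EqvGen.rel _ _ ⟨i, b, hi, rfl, rfl⟩
    exact ⟨fun h => h.trans _ _ _ h1, fun h => h.trans _ _ _ (h1.symm _ _)⟩
  have hout : ∃ v, ¬ Ins M a a' v := by
    rcases x with b | w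
    · exact ⟨M.c 0 b, fun h => hx (h 0 b rfl).1⟩
    · refine ⟨M.c 0 ((M.e 1).symm w), fun h => hx ?_⟩
      have := (h 0 ((M.e 1).symm w) rfl).2.1
      have e1 : (0 : Fin 3) + 1 = 1 := rfl
      rw [e1, Equiv.apply_symm_apply] at this
      exact this
  have hconn : ∀ (hB : B → ℚ) (hW : W → ℚ),
      (∀ b i, a b → a' (M.e i b) → hB b = hW (M.e i b)) → hB b0 = 0 →
      (∀ b, a b → hB b = 0) ∧ (∀ w, a' w → hW w = 0) := by
    intro hB hW h1 h2
    have h3 : ∀ x y, Relation.EqvGen r x y → Relation.EqvGen r (Sum.inl b0) x →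
        Sum.elim hB hW x = Sum.elim hB hW y := by
      intro x y hxy
      induction hxy with
      | rel x y hxy =>
        intro hx
        obtain ⟨i, b, hi, rfl, rfl⟩ := hxy
        exact h1 b i hx ((hcl i b hi).1 hx)
      | refl x => intro _; rfl
      | symm x y hxy ih => intro hy; exact (ih (hy.trans _ _ _ (hxy.symm _ _))).symm
      | trans x y z hxy _ ih1 ih2 => intro hx; exact (ih1 hx).trans (ih2 (hx.trans _ _ _ hxy))
    constructor
    · intro b hb
      have := h3 _ _ hb (Relation.EqvGen.refl _)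
      simp only [Sum.elim_inl] at this
      rw [← this, h2]
    · intro w hw
      have := h3 _ _ hw (Relation.EqvGen.refl _)
      simp only [Sum.elim_inl, Sum.elim_inr] at this
      rw [← this, h2]
  have heul := euler_ineq hS.conn a a' b0 ha0 hconn hout
  -- the assignment is onto all faces but two
  let o : B → V := fun b => if b = b0 then M.c (m b0 + 1) b0 else M.c (f b) b
  have ho : Function.Injective o := by
    intro b b' h
    simp only [o] at h
    by_cases h1 : b = b0 <;> by_cases h2 : b' = b0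
    · rw [h1, h2]
    · rw [if_pos h1, if_neg h2] at h; exact absurd h.symm (hf.off b' _ h2)
    · rw [if_neg h1, if_pos h2] at h; exact absurd h (hf.off b _ h1)
    · rw [if_neg h1, if_neg h2] at h; exact hf.inj b b' h1 h2 h
  have hsurj : ∀ v, v ≠ M.c (m b0) b0 → v ≠ M.c (m b0 + 2) b0 → ∃ b, o b = v := by
    intro v hv1 hv2
    by_contra hv
    have h1 : (univ.image o).card = Fintype.card B := by
      rw [Finset.card_image_of_injective _ ho]; rfl
    have h2 : M.c (m b0) b0 ∉ univ.image o := by
      simp only [Finset.mem_image, Finset.mem_univ, true_and, not_exists, o]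
      intro b hb
      by_cases h3 : b = b0
      · rw [if_pos h3] at hb
        exact fne1 _ (M.cls _ _ _ _ hb)
      · rw [if_neg h3] at hb; exact hf.off b _ h3 hb
    have h3 : M.c (m b0 + 2) b0 ∉ univ.image o := by
      simp only [Finset.mem_image, Finset.mem_univ, true_and, not_exists, o]
      intro b hb
      by_cases h3 : b = b0
      · rw [if_pos h3] at hb
        exact fne12 _ (M.cls _ _ _ _ hb)
      · rw [if_neg h3] at hb; exact hf.off b _ h3 hb
    have h4 : v ∉ univ.image o := by
      simp only [Finset.mem_image, Finset.mem_univ, true_and]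
      exact hv
    have h5 : (insert v (insert (M.c (m b0) b0) (insert (M.c (m b0 + 2) b0)
        (univ.image o)))).card ≤ Fintype.card V := Finset.card_le_univ _
    rw [Finset.card_insert_of_notMem, Finset.card_insert_of_notMem,
      Finset.card_insert_of_notMem h3, h1, hS.card] at h5
    · omega
    · simp only [Finset.mem_insert, not_or]
      exact ⟨fun h => fne2 _ (M.cls _ _ _ _ h).symm, h2⟩
    · simp only [Finset.mem_insert, not_or]
      exact ⟨hv1, hv2, h4⟩
  -- the faces outside
  have hOut : (univ.filter fun v => Ins M (fun b => ¬ a b) (fun w => ¬ a' w) v).card ≤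
      (univ.filter fun b => ¬ a b ∧ ¬ a' (M.e (m b) b)).card := by
    refine le_trans (Finset.card_le_card (t := (univ.filter fun b =>
      ¬ a b ∧ ¬ a' (M.e (m b) b)).image o) ?_) Finset.card_image_le
    intro v hv
    simp only [Finset.mem_filter, Finset.mem_univ, true_and] at hv
    have hroot : ∀ j, v ≠ M.c j b0 := fun j h => (hv j b0 h.symm).1 ha0
    obtain ⟨b, hb⟩ := hsurj v (hroot _) (hroot _)
    simp only [Finset.mem_image, Finset.mem_filter, Finset.mem_univ, true_and]
    refine ⟨b, ?_, hb⟩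
    have hbb : b ≠ b0 := by
      intro h
      simp only [o, if_pos h] at hb
      exact hroot _ hb.symm
    simp only [o, if_neg hbb] at hb
    have h1 := hv (f b) b hb
    refine ⟨h1.1, ?_⟩
    rcases fcase (m b) (f b) with h | h | h
    · exact absurd h (hm b hbb)
    · rw [h]; exact h1.2.1
    · rw [h]; exact h1.2.2
  -- the crossing faces
  have hcross : 2 * ((univ.filter fun v => ¬ Ins M a a' v ∧
      ¬ Ins M (fun b => ¬ a b) (fun w => ¬ a' w) v).card : ℤ) ≤
      2 * ∑ b, cutn M a a' (m b) b := by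
    have h1 : ∀ v, (0 : ℤ) ≤ ∑ j : Fin 3, ∑ b : B,
      if M.c j b = v then cutn M a a' (j + 1) b + cutn M a a' (j + 2) b else 0 := by
      intro v
      apply Finset.sum_nonneg; intro j _
      apply Finset.sum_nonneg; intro b _
      split_ifs
      · exact add_nonneg (cutn_nonneg _ _ _ _) (cutn_nonneg _ _ _ _)
      · exact le_refl _
    have h2 : 2 * ((univ.filter fun v => ¬ Ins M a a' v ∧
      ¬ Ins M (fun b => ¬ a b) (fun w => ¬ a' w) v).card : ℤ) ≤
      ∑ v : V, ∑ j : Fin 3, ∑ b : B,
      if M.c j b = v then cutn M a a' (j + 1) b + cutn M a a' (j + 2) b else 0 := by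
      refine le_trans ?_ (Finset.sum_le_sum_of_subset_of_nonneg (Finset.filter_subset
        (fun v => ¬ Ins M a a' v ∧ ¬ Ins M (fun b => ¬ a b) (fun w => ¬ a' w) v) univ)
        (fun v _ _ => h1 v))
      rw [mul_comm, ← nsmul_eq_mul]
      apply Finset.card_nsmul_le_sum
      intro v hv
      simp only [Finset.mem_filter, Finset.mem_univ, true_and] at hv
      exact two_le_cross a a' v hv.1 hv.2
    refine le_trans h2 (le_of_eq ?_)
    rw [Finset.sum_comm]
    have h3 : ∀ j : Fin 3, (∑ v : V, ∑ b : B,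
        if M.c j b = v then cutn M a a' (j + 1) b + cutn M a a' (j + 2) b else 0) =
        ∑ b : B, (cutn M a a' (j + 1) b + cutn M a a' (j + 2) b) := by
      intro j
      rw [Finset.sum_comm]
      apply Finset.sum_congr rfl; intro b _
      rw [Finset.sum_ite_eq Finset.univ (M.c j b)]
      simp
    rw [Finset.sum_congr rfl (fun j _ => h3 j), Finset.sum_comm, Finset.mul_sum]
    apply Finset.sum_congr rfl; intro b _
    have h4 : ∀ i, i ≠ m b → cutn M a a' i b = 0 := fun i hi => if_pos (hcl i b hi)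
    have h5 : ∀ i, cutn M a a' i b = if i = m b then cutn M a a' (m b) b else 0 := by
      intro i
      by_cases hi : i = m b
      · rw [if_pos hi, hi]
      · rw [if_neg hi, h4 i hi]
    rw [Fin.sum_univ_three]
    rw [h5 (0 + 1), h5 (0 + 2), h5 (1 + 1), h5 (1 + 2), h5 (2 + 1), h5 (2 + 2)]
    generalize cutn M a a' (m b) b = t
    generalize m b = k
    fin_cases k <;> simp <;> ring
  -- the count
  let P : B → ℤ := fun b => if a b then 1 else 0
  let Q : W → ℤ := fun w => if a' w then 1 else 0
  have hPP : ∀ b, P b * P b = P b := by intro b; simp only [P]; split_ifs <;> simp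
  have hPQ : ∀ i b, i ≠ m b → Q (M.e i b) = P b := by
    intro i b hi
    simp only [P, Q]
    by_cases h : a b
    · rw [if_pos h, if_pos ((hcl i b hi).1 h)]
    · rw [if_neg h, if_neg (fun h2 => h ((hcl i b hi).2 h2))]
  have hsum3 : ∀ (b : B) (g : Fin 3 → ℤ) (t : ℤ), (∀ i, i ≠ m b → g i = t) →
      ∑ i, g i = 2 * t + g (m b) := by
    intro b g t hg
    rw [Fin.sum_univ_three]
    generalize m b = k at hg ⊢
    fin_cases k
    · have h1 := hg 1 (by decide); have h2 := hg 2 (by decide)
      simp only [h1, h2]; simp; ring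
    · have h1 := hg 0 (by decide); have h2 := hg 2 (by decide)
      simp only [h1, h2]; simp; ring
    · have h1 := hg 0 (by decide); have h2 := hg 1 (by decide)
      simp only [h1, h2]; simp; ring
  have hQi : ∀ i, ∑ b, Q (M.e i b) = ∑ w, Q w := fun i => Equiv.sum_comp (M.e i) Q
  have hQm : ∑ b, Q (M.e (m b) b) = ∑ w, Q w :=
    Equiv.sum_comp (Equiv.ofBijective _ hbij) Q
  have hBW : ∑ b, P b = ∑ w, Q w := by
    have h1 : ∑ b, ∑ i : Fin 3, (P b - Q (M.e i b)) = 3 * ∑ b, P b - 3 * ∑ w, Q w := by
      simp only [Finset.sum_sub_distrib]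
      have h2 : ∑ b, ∑ i : Fin 3, P b = 3 * ∑ b, P b := by
        rw [Finset.mul_sum]; apply Finset.sum_congr rfl; intro b _
        simp
      have h3 : ∑ b, ∑ i : Fin 3, Q (M.e i b) = 3 * ∑ w, Q w := by
        rw [Finset.sum_comm, Finset.sum_congr rfl (fun i _ => hQi i)]
        simp
      rw [h2, h3]
    have h2 : ∑ b, ∑ i : Fin 3, (P b - Q (M.e i b)) = ∑ b, P b - ∑ w, Q w := by
      rw [← hQm, ← Finset.sum_sub_distrib]
      apply Finset.sum_congr rfl; intro b _
      rw [hsum3 b (fun i => P b - Q (M.e i b)) 0 (fun i hi => by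
        change P b - Q (M.e i b) = 0
        rw [hPQ i b hi, sub_self])]
      ring
    linarith
  have hcardB : (Nat.card {b // a b} : ℤ) = ∑ b, P b := by
    rw [Nat.card_eq_fintype_card, Fintype.card_subtype]
    simp [P]
  have hcardW : (Nat.card {w // a' w} : ℤ) = ∑ w, Q w := by
    rw [Nat.card_eq_fintype_card, Fintype.card_subtype]
    simp [Q]
  have hcardE : (Nat.card {p : B × Fin 3 // a p.1 ∧ a' (M.e p.2 p.1)} : ℤ) =
      2 * (∑ b, P b) + ∑ b, P b * Q (M.e (m b) b) := by
    rw [Nat.card_eq_fintype_card, Fintype.card_subtype]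
    have h1 : ((univ.filter fun p : B × Fin 3 => a p.1 ∧ a' (M.e p.2 p.1)).card : ℤ) =
        ∑ p : B × Fin 3, P p.1 * Q (M.e p.2 p.1) := by
      rw [Finset.card_filter]
      push_cast
      apply Finset.sum_congr rfl; intro p _
      simp only [P, Q]
      by_cases h1 : a p.1 <;> by_cases h2 : a' (M.e p.2 p.1) <;> simp [h1, h2]
    rw [h1, Fintype.sum_prod_type, Finset.mul_sum, ← Finset.sum_add_distrib]
    apply Finset.sum_congr rfl; intro b _
    exact hsum3 b (fun i => P b * Q (M.e i b)) (P b) (fun i hi => by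
      change P b * Q (M.e i b) = P b
      rw [hPQ i b hi, hPP])
  have hcardOut : ((univ.filter fun b => ¬ a b ∧ ¬ a' (M.e (m b) b)).card : ℤ) =
      Fintype.card B - ∑ b, P b - ∑ w, Q w + ∑ b, P b * Q (M.e (m b) b) := by
    have h1 : ((univ.filter fun b => ¬ a b ∧ ¬ a' (M.e (m b) b)).card : ℤ) =
        ∑ b, (1 - P b - Q (M.e (m b) b) + P b * Q (M.e (m b) b)) := by
      rw [Finset.card_filter]
      push_cast
      apply Finset.sum_congr rfl; intro b _
      simp only [P, Q]
      by_cases h1 : a b <;> by_cases h2 : a' (M.e (m b) b) <;> simp [h1, h2]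
    rw [h1, Finset.sum_add_distrib, Finset.sum_sub_distrib, Finset.sum_sub_distrib, hQm]
    simp
  have hcardC : ∑ b, cutn M a a' (m b) b =
      ∑ b, P b + ∑ w, Q w - 2 * ∑ b, P b * Q (M.e (m b) b) := by
    rw [← hQm, Finset.mul_sum, ← Finset.sum_add_distrib, ← Finset.sum_sub_distrib]
    apply Finset.sum_congr rfl; intro b _
    simp only [cutn, P, Q]
    by_cases h1 : a b <;> by_cases h2 : a' (M.e (m b) b) <;> simp [h1, h2]
  have hV : (Fintype.card V : ℤ) = (Nat.card {v // Ins M a a' v} : ℤ) +
      ((univ.filter fun v => Ins M (fun b => ¬ a b) (fun w => ¬ a' w) v).card : ℤ) +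
      ((univ.filter fun v => ¬ Ins M a a' v ∧
      ¬ Ins M (fun b => ¬ a b) (fun w => ¬ a' w) v).card : ℤ) := by
    rw [Nat.card_eq_fintype_card, Fintype.card_subtype, Finset.card_filter, Finset.card_filter,
      Finset.card_filter]
    push_cast
    rw [← Finset.sum_add_distrib, ← Finset.sum_add_distrib]
    have h1 : ∀ v, (if Ins M a a' v then (1 : ℤ) else 0) +
        (if Ins M (fun b => ¬ a b) (fun w => ¬ a' w) v then (1 : ℤ) else 0) +
        (if ¬ Ins M a a' v ∧ ¬ Ins M (fun b => ¬ a b) (fun w => ¬ a' w) v then (1 : ℤ) else 0)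
        = 1 := by
      intro v
      by_cases h1 : Ins M a a' v <;> by_cases h2 : Ins M (fun b => ¬ a b) (fun w => ¬ a' w) v
      · exfalso
        obtain ⟨j, b, hb⟩ := M.surj v
        exact (h2 j b hb).1 (h1 j b hb).1
      all_goals simp [h1, h2]
    rw [Finset.sum_congr rfl (fun v _ => h1 v)]
    simp
  have hN : (Fintype.card V : ℤ) = Fintype.card B + 2 := by
    have := hS.card
    exact_mod_cast this
  have heul' : (Nat.card {v // Ins M a a' v} : ℤ) + Nat.card {b // a b} + Nat.card {w // a' w} ≤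
      Nat.card {p : B × Fin 3 // a p.1 ∧ a' (M.e p.2 p.1)} + 1 := by exact_mod_cast heul
  have hOut' : ((univ.filter fun v => Ins M (fun b => ¬ a b) (fun w => ¬ a' w) v).card : ℤ) ≤
      ((univ.filter fun b => ¬ a b ∧ ¬ a' (M.e (m b) b)).card : ℤ) := by exact_mod_cast hOut
  linarith

/-- STEP 1: if the signed sum at `f` does not vanish, then for every colour `j` there is a
Hamiltonian cycle which avoids the edge of colour `j` at `b0`: the complement of the perfect
matching `m` is connected. -/
theorem ham_of_det [DecidableEq B] [DecidableEq V] (hS : M.Sph) {b0 : B} {f : B → Fin 3}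
    (hf : Choice M b0 f) (hdet : (mat M b0 f).det ≠ 0) (j : Fin 3) :
    ∃ m : B → Fin 3, m b0 = j ∧ Function.Bijective (fun b => M.e (m b) b) ∧
      (∀ x y : B ⊕ W, Relation.EqvGen
        (fun x y => ∃ i b, i ≠ m b ∧ x = Sum.inl b ∧ y = Sum.inr (M.e i b)) x y) ∧
      ∀ (S : Set B) (T : Set W), (∀ b i, i ≠ m b → (b ∈ S ↔ M.e i b ∈ T)) → S.Nonempty →
        (∀ b, b ∈ S) ∧ ∀ w, w ∈ T := by
  classical
  obtain ⟨m, hm0, hm, hbij⟩ := link_match hS.conn hf hdet j
  have h1 := ham_of_owner hS hf hm hbij
  have h2 : ∀ x y : B ⊕ W, Relation.EqvGen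
        (fun x y => ∃ i b, i ≠ m b ∧ x = Sum.inl b ∧ y = Sum.inr (M.e i b)) x y :=
    fun x y => (h1 x).symm.trans _ _ _ (h1 y)
  refine ⟨m, hm0, hbij, h2, ?_⟩
  intro S T hST ⟨b1, hb1⟩
  have h3 : ∀ x y : B ⊕ W, Relation.EqvGen
        (fun x y => ∃ i b, i ≠ m b ∧ x = Sum.inl b ∧ y = Sum.inr (M.e i b)) x y →
        (Sum.elim S T x ↔ Sum.elim S T y) := by
    intro x y hxy
    induction hxy with
    | rel x y hxy => obtain ⟨i, b, hi, rfl, rfl⟩ := hxy; exact hST b i hi
    | refl x => exact Iff.rfl
    | symm x y _ ih => exact ih.symm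
    | trans x y z _ _ ih1 ih2 => exact ih1.trans ih2
  exact ⟨fun b => (h3 (Sum.inl b1) (Sum.inl b) (h2 _ _)).1 hb1,
    fun w => (h3 (Sum.inl b1) (Sum.inr w) (h2 _ _)).1 hb1⟩

end

end Vale.Agent.P039.H648
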