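import Vale.Agent.P039.Bn.Defs
import Mathlib.LinearAlgebra.Matrix.ToLinearEquiv
import Mathlib.LinearAlgebra.Matrix.NonsingularInverse
import Mathlib.Tactic

/-! The link between the signed sum over matchings and the perfect matching of the cubic map. -/

namespace Vale.Agent.P039.H648

open Finset Matrix

open Vale.Agent.P039.Bn Vale.Agent.P039.Bn.PMap

variable {B W V : Type}

/-- the sign of a rotation by one or two steps -/
def eps (x : Fin 3) : ℤ := if x = 1 then 1 else if x = 2 then -1 else 0

theorem eps_self (j : Fin 3) : eps (j - j) = 0 := by revert j; decide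
theorem eps_one (j : Fin 3) : eps (j + 1 - j) = 1 := by revert j; decide
theorem eps_two (j : Fin 3) : eps (j + 2 - j) = -1 := by revert j; decide

/-- `f` chooses, for every black `b ≠ b0`, a corner, whose face does not touch `b0`; different
blacks choose different faces. -/
structure Choice (M : PMap B W V) (b0 : B) (f : B → Fin 3) : Prop where
  inj : ∀ b b', b ≠ b0 → b' ≠ b0 → M.c (f b) b = M.c (f b') b' → b = b'
  off : ∀ b j, b ≠ b0 → M.c (f b) b ≠ M.c j b0

section

variable [Fintype B] [DecidableEq B] [DecidableEq V] (M : PMap B W V) (b0 : B) (f : B → Fin 3)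

/-- The matrix of the signed sum. -/
def mat : Matrix {b : B // b ≠ b0} {b : B // b ≠ b0} ℚ := fun b b' =>
  if M.c (f b') b = M.c (f b') b' then ((eps (f b' - f b) : ℤ) : ℚ) else 0

/-- the coboundary of a function on the whites -/
def cob (A : W → ℚ) (j : Fin 3) (b : B) : ℚ := A (M.e (j + 1) b) - A (M.e (j + 2) b)

omit [Fintype B] [DecidableEq B] [DecidableEq V] in
theorem cob_sum (A : W → ℚ) (j : Fin 3) (b : B) :
    cob M A j b + cob M A (j + 1) b + cob M A (j + 2) b = 0 := by
  unfold cob
  rw [f11, f12, f21, f22]; ring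

omit [DecidableEq B] in
theorem cob_face (A : W → ℚ) (j : Fin 3) (v : V) :
    (∑ b : B, if M.c j b = v then cob M A j b else 0) = 0 := by
  have h1 : ∀ b : B, (if M.c j b = v then cob M A j b else 0)
      = (if M.c j b = v then A (M.e (j + 1) b) else 0)
        - (if M.c j (M.rho j b) = v then A (M.e (j + 1) (M.rho j b)) else 0) := by
    intro b
    rw [M.c_rho, M.e_rho]
    unfold cob
    split_ifs <;> ring
  rw [Finset.sum_congr rfl (fun b _ => h1 b), Finset.sum_sub_distrib]
  rw [Equiv.sum_comp (M.rho j) (fun b => if M.c j b = v then A (M.e (j + 1) b) else 0)]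
  ring

variable {M b0 f}

omit [Fintype B] [DecidableEq B] [DecidableEq V] in
theorem conn_W (hc : M.Conn) {A : W → ℚ} (h : ∀ b j, A (M.e (j + 1) b) = A (M.e (j + 2) b)) (w w' : W) :
    A w = A w' := by
  have h0 : ∀ b i j, A (M.e i b) = A (M.e j b) := by
    have key : ∀ b i, A (M.e i b) = A (M.e 0 b) := by
      intro b i
      have h1 := h b 0
      have h2 := h b 1
      have h3 := h b 2
      have e1 : (0 : Fin 3) + 1 = 1 := rfl
      have e2 : (0 : Fin 3) + 2 = 2 := rfl
      have e3 : (1 : Fin 3) + 1 = 2 := rfl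
      have e4 : (1 : Fin 3) + 2 = 0 := rfl
      rw [e1, e2] at h1
      rw [e3, e4] at h2
      fin_cases i
      · rfl
      · exact h1.trans h2
      · exact h2
    intro b i j
    rw [key b i, key b j]
  -- going around a face
  have h1 : ∀ j x y, Relation.EqvGen (fun x y => M.e (j + 1) y = M.e (j + 2) x) x y →
      A (M.e 0 x) = A (M.e 0 y) := by
    intro j x y hxy
    induction hxy with
    | rel x y hxy => rw [h0 x 0 (j + 2), ← hxy, h0 y 0 (j + 1)]
    | refl x => rfl
    | symm x y _ ih => exact ih.symm
    | trans x y z _ _ ih1 ih2 => exact ih1.trans ih2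
  have h2 : ∀ b b', A (M.e 0 b) = A (M.e 0 b') := by
    intro b b'
    have := hc b b'
    induction this with
    | rel x y hxy => obtain ⟨j, hj⟩ := hxy; exact h1 j x y (M.exact j x y hj)
    | refl x => rfl
    | symm x y _ ih => exact ih.symm
    | trans x y z _ _ ih1 ih2 => exact ih1.trans ih2
  have := h2 ((M.e 0).symm w) ((M.e 0).symm w')
  simpa using this

/-- If the matrix is non-singular then the graph on the whites, which has for every black
`b ≠ b0` an edge between the two whites at `b` on the chosen face, is connected. -/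
theorem link_const (hc : M.Conn) (hf : Choice M b0 f) (hdet : (mat M b0 f).det ≠ 0)
    (A : W → ℚ) (hA : ∀ b, b ≠ b0 → A (M.e (f b + 1) b) = A (M.e (f b + 2) b)) (w w' : W) :
    A w = A w' := by
  classical
  -- the flow
  let x : {b : B // b ≠ b0} → ℚ := fun b => cob M A (f b + 1) b
  have hz : ∀ b, b ≠ b0 → cob M A (f b) b = 0 := by
    intro b hb; unfold cob; rw [hA b hb]; ring
  have hx2 : ∀ b (hb : b ≠ b0), cob M A (f b + 2) b = - x ⟨b, hb⟩ := by
    intro b hb
    have h1 := cob_sum M A (f b) b
    have h2 := hz b hb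
    simp only [x]
    linarith
  have hx : ∀ b (hb : b ≠ b0) j, cob M A j b = ((eps (j - f b) : ℤ) : ℚ) * x ⟨b, hb⟩ := by
    intro b hb j
    rcases fcase j (f b) with h | h | h
    · rw [h, hz b hb, eps_self]; simp
    · rw [h, eps_one]; simp [x]
    · rw [h, eps_two, hx2 b hb]; simp
  have hvm : x ᵥ* (mat M b0 f) = 0 := by
    funext b'
    have h1 := cob_face M A (f b') (M.c (f b') b')
    rw [← Finset.sum_erase_add _ _ (Finset.mem_univ b0)] at h1
    rw [if_neg (fun h => hf.off b' (f b') b'.2 h.symm), add_zero] at h1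
    simp only [Matrix.vecMul, dotProduct, Pi.zero_apply]
    rw [← h1, Finset.sum_subtype (univ.erase b0) (p := fun b => b ≠ b0) (by simp)]
    apply Finset.sum_congr rfl
    intro b _
    unfold mat
    split_ifs with h
    · rw [hx b b.2, mul_comm]
    · rw [mul_zero]
  have hx0 : x = 0 := by
    by_contra hne
    exact hdet (Matrix.exists_vecMul_eq_zero_iff.1 ⟨x, hne, hvm⟩)
  have hcob : ∀ b, b ≠ b0 → ∀ j, cob M A j b = 0 := by
    intro b hb j
    rw [hx b hb j, hx0]; simp
  have hcob0 : ∀ j, cob M A j b0 = 0 := by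
    intro j
    have h1 := cob_face M A j (M.c j b0)
    rw [Finset.sum_eq_single b0] at h1
    · simpa using h1
    · intro b _ hb; rw [hcob b hb]; simp
    · intro h; exact absurd (Finset.mem_univ _) h
  apply conn_W hc
  intro b j
  have : cob M A j b = 0 := by
    by_cases hb : b = b0
    · rw [hb]; exact hcob0 j
    · exact hcob b hb j
  unfold cob at this
  linarith

/-- In the situation of `link_const`, for every colour `j` there is a perfect matching of the
cubic map which uses the edge of colour `j` at `b0`, and which uses at every other black `b` one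
of the two edges on the boundary of the chosen face. -/
theorem link_match [DecidableEq W] (hc : M.Conn) (hf : Choice M b0 f)
    (hdet : (mat M b0 f).det ≠ 0) (j : Fin 3) :
    ∃ m : B → Fin 3, m b0 = j ∧ (∀ b, b ≠ b0 → m b ≠ f b) ∧
      Function.Bijective (fun b => M.e (m b) b) := by
  classical
  let K : Matrix {b : B // b ≠ b0} {b : B // b ≠ b0} ℚ := fun b b' =>
    (if M.e j b' = M.e (f b + 1) b then 1 else 0) - (if M.e j b' = M.e (f b + 2) b then 1 else 0)
  have hK : K.det ≠ 0 := by
    intro h0
    obtain ⟨h, hne, hh⟩ := Matrix.exists_mulVec_eq_zero_iff.2 h0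
    apply hne
    let A : W → ℚ := fun w =>
      if hw : (M.e j).symm w ≠ b0 then h ⟨(M.e j).symm w, hw⟩ else 0
    have hA0 : ∀ w, A w = ∑ b' : {b : B // b ≠ b0}, if M.e j b' = w then h b' else 0 := by
      intro w
      by_cases hw : (M.e j).symm w ≠ b0
      · rw [Finset.sum_eq_single (⟨(M.e j).symm w, hw⟩ : {b : B // b ≠ b0})]
        · simp [A, hw]
        · intro b' _ hb'
          rw [if_neg]
          intro h2
          apply hb'
          apply Subtype.ext
          simp [← h2]
        · intro h2; exact absurd (Finset.mem_univ _) h2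
      · rw [Finset.sum_eq_zero]
        · simp [A, hw]
        · intro b' _
          rw [if_neg]
          intro h2
          apply hw
          rw [← h2]
          simpa using b'.2
    have hA : ∀ b, b ≠ b0 → A (M.e (f b + 1) b) = A (M.e (f b + 2) b) := by
      intro b hb
      have h1 := congrFun hh ⟨b, hb⟩
      simp only [Matrix.mulVec, dotProduct, Pi.zero_apply, K, sub_mul, ite_mul, one_mul,
        zero_mul, Finset.sum_sub_distrib] at h1
      rw [hA0, hA0]
      linarith
    have hconst := link_const hc hf hdet A hA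
    funext b
    have h1 := hconst (M.e j b) (M.e j b0)
    have h2 : A (M.e j b0) = 0 := by simp [A]
    have h3 : A (M.e j b) = h b := by
      have : (M.e j).symm (M.e j b) ≠ b0 := by simpa using b.2
      simp only [A, dif_pos this]
      congr 1
      apply Subtype.ext
      simp
    rw [h2, h3] at h1
    exact h1
  rw [Matrix.det_apply] at hK
  obtain ⟨σ, _, hσ⟩ := Finset.exists_ne_zero_of_sum_ne_zero hK
  have hσ' : ∀ b, K (σ b) b ≠ 0 := by
    intro b h
    apply hσ
    have h2 : ∏ i, K (σ i) i = 0 := Finset.prod_eq_zero (f := fun i => K (σ i) i)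
      (Finset.mem_univ b) h
    rw [h2, smul_zero]
  have hex : ∀ b : B, ∃ i : Fin 3, (b = b0 → i = j) ∧ (∀ hb : b ≠ b0, i ≠ f b ∧
      M.e i b = M.e j (σ.symm ⟨b, hb⟩)) := by
    intro b
    by_cases hb : b = b0
    · exact ⟨j, fun _ => rfl, fun h => absurd hb h⟩
    · have h1 := hσ' (σ.symm ⟨b, hb⟩)
      simp only [Equiv.apply_symm_apply, K] at h1
      by_cases h2 : M.e j (σ.symm ⟨b, hb⟩) = M.e (f b + 1) b
      · exact ⟨f b + 1, fun h => absurd h hb, fun _ => ⟨fne1 _, h2.symm⟩⟩
      · by_cases h3 : M.e j (σ.symm ⟨b, hb⟩) = M.e (f b + 2) b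
        · exact ⟨f b + 2, fun h => absurd h hb, fun _ => ⟨fne2 _, h3.symm⟩⟩
        · exfalso
          apply h1
          rw [if_neg h2, if_neg h3]; ring
  choose m hm0 hm using hex
  refine ⟨m, hm0 b0 rfl, fun b hb => (hm b hb).1, ?_⟩
  have heq : (fun b => M.e (m b) b) = fun b => M.e j ((Equiv.Perm.ofSubtype σ).symm b) := by
    funext b
    by_cases hb : b = b0
    · subst hb
      rw [hm0 b rfl]
      congr 1
      rw [Equiv.eq_symm_apply]
      exact Equiv.Perm.ofSubtype_apply_of_not_mem σ (by simp)
    · rw [(hm b hb).2]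
      congr 1
      rw [Equiv.eq_symm_apply, Equiv.Perm.ofSubtype_apply_coe]
      simp
  rw [heq]
  exact (M.e j).bijective.comp (Equiv.bijective _)

end

end Vale.Agent.P039.H648
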